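import Mathlib

namespace Vale.Agent.Lib.P071

open Set MeasureTheory Real

/-- `stopped g a b t = g (max a (min t b))`: equal to `g` on `[a,b]`, constant outside. -/
noncomputable def stopped (g : ℝ → ℝ) (a b : ℝ) (t : ℝ) : ℝ := g (max a (min t b))

/-- The two-dimensional variational hypothesis: `μ` is at most the Rayleigh quotient of every
Lipschitz function of weighted mean zero on the rectangle `[t₁,t₂] × [0,α]`, for the weight
`w(t) dt dθ` and the Dirichlet integral `∫∫ (v_t² + v_θ²) dt dθ`. -/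
def RayleighMin (t₁ t₂ α μ : ℝ) (w : ℝ → ℝ) : Prop :=
  ∀ (K : NNReal) (v : ℝ × ℝ → ℝ), LipschitzWith K v →
    (∫ t in t₁..t₂, ∫ θ in (0:ℝ)..α, w t * v (t, θ)) = 0 →
    μ * ∫ t in t₁..t₂, ∫ θ in (0:ℝ)..α, w t * v (t, θ) ^ 2
      ≤ ∫ t in t₁..t₂, ∫ θ in (0:ℝ)..α,
          (deriv (fun r => v (r, θ)) t ^ 2 + deriv (fun r => v (t, r)) θ ^ 2)

end Vale.Agent.Lib.P071
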