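import Mathlib
import Vale.Agent.Lib.P071.Defs
import Vale.Agent.Lib.P222.FourierInv

namespace Vale.Agent.Lib.P071

open Set MeasureTheory Real

/-- The even reflection profile: `arccos (cos (2 π s)) / π` equals `2 s` on `[0, 1/2]` and
`2 (1 - s)` on `[1/2, 1]`. -/
lemma cosine_tri_left {s : ℝ} (h0 : 0 ≤ s) (h1 : s ≤ 1 / 2) :
    arccos (cos (2 * π * s)) / π = 2 * s := by
  have hp := pi_pos
  rw [arccos_cos (by positivity) (by nlinarith)]
  field_simp

lemma cosine_tri_right {s : ℝ} (h0 : 1 / 2 ≤ s) (h1 : s ≤ 1) :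
    arccos (cos (2 * π * s)) / π = 2 * (1 - s) := by
  have hp := pi_pos
  have e : cos (2 * π * s) = cos (2 * π * (1 - s)) := by
    have : 2 * π * (1 - s) = 2 * π - 2 * π * s := by ring
    rw [this, cos_two_pi_sub]
  rw [e, arccos_cos (by nlinarith) (by nlinarith)]
  field_simp

/-- Both halves of the reflected integral reduce to the integral over `[0, α]`. -/
lemma cosine_half_integrals {α : ℝ} (hα : 0 < α) (G : ℝ → ℝ) :
    (∫ s in (0:ℝ)..(1 / 2), G (2 * α * s)) = (2 * α)⁻¹ * ∫ θ in (0:ℝ)..α, G θ := by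
  have h2 : (2 * α) ≠ 0 := by positivity
  rw [intervalIntegral.integral_comp_mul_left (fun x => G x) h2]
  simp only [mul_zero, smul_eq_mul]
  congr 2
  field_simp

lemma cosine_half_integrals' {α : ℝ} (hα : 0 < α) (G : ℝ → ℝ) :
    (∫ s in (1 / 2 : ℝ)..1, G (2 * α * (1 - s))) = (2 * α)⁻¹ * ∫ θ in (0:ℝ)..α, G θ := by
  rw [intervalIntegral.integral_comp_sub_left (fun x => G (2 * α * x)) 1]
  rw [← cosine_half_integrals hα G]
  norm_num

theorem cosine_two_modes {α : ℝ} (hα : 0 < α) {h : ℝ → ℝ} (hc : Continuous h)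
    (hk : ∀ k : ℕ, 2 ≤ k → ∫ θ in (0:ℝ)..α, h θ * cos (k * π * θ / α) = 0) :
    ∀ θ ∈ Icc (0:ℝ) α, h θ = (1 / α) * (∫ s in (0:ℝ)..α, h s)
        + (2 / α) * (∫ s in (0:ℝ)..α, h s * cos (π * s / α)) * cos (π * θ / α) := by
  have hp := pi_pos
  have hαne : α ≠ 0 := hα.ne'
  set f : ℝ → ℝ := fun s => h (α * (arccos (cos (2 * π * s)) / π)) with hf
  have hfc : Continuous f := by
    rw [hf]
    exact hc.comp (continuous_const.mul ((continuous_arccos.comp (by fun_prop)).div_const π))
  have hper : ∀ y, f (y + 1) = f y := by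
    intro y
    simp only [hf]
    have : 2 * π * (y + 1) = 2 * π * y + 2 * π := by ring
    rw [this, cos_add_two_pi]
  have hfl : ∀ s ∈ Icc (0:ℝ) (1 / 2), f s = h (2 * α * s) := by
    intro s hs
    simp only [hf]
    rw [cosine_tri_left hs.1 hs.2]
    congr 1
    ring
  have hfr : ∀ s ∈ Icc (1 / 2 : ℝ) 1, f s = h (2 * α * (1 - s)) := by
    intro s hs
    simp only [hf]
    rw [cosine_tri_right hs.1 hs.2]
    congr 1
    ring
  -- cosine coefficients
  have hA : ∀ k : ℕ, (∫ t in (0:ℝ)..1, f t * cos (2 * π * k * t))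
      = (1 / α) * ∫ θ in (0:ℝ)..α, h θ * cos (k * π * θ / α) := by
    intro k
    have hint : ∀ a b : ℝ, IntervalIntegrable (fun t => f t * cos (2 * π * k * t)) volume a b :=
      fun a b => (hfc.mul (by fun_prop)).intervalIntegrable a b
    rw [← intervalIntegral.integral_add_adjacent_intervals (hint 0 (1 / 2)) (hint (1 / 2) 1)]
    have e1 : (∫ t in (0:ℝ)..(1 / 2), f t * cos (2 * π * k * t))
        = ∫ s in (0:ℝ)..(1 / 2), (fun θ => h θ * cos (k * π * θ / α)) (2 * α * s) := by
      apply intervalIntegral.integral_congr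
      intro s hs
      rw [uIcc_of_le (by norm_num)] at hs
      show f s * cos (2 * π * k * s) = h (2 * α * s) * cos (k * π * (2 * α * s) / α)
      rw [hfl s hs]
      have : k * π * (2 * α * s) / α = 2 * π * k * s := by
        field_simp
      rw [this]
    have e2 : (∫ t in (1 / 2 : ℝ)..1, f t * cos (2 * π * k * t))
        = ∫ s in (1 / 2 : ℝ)..1, (fun θ => h θ * cos (k * π * θ / α)) (2 * α * (1 - s)) := by
      apply intervalIntegral.integral_congr
      intro s hs
      rw [uIcc_of_le (by norm_num)] at hs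
      show f s * cos (2 * π * k * s)
        = h (2 * α * (1 - s)) * cos (k * π * (2 * α * (1 - s)) / α)
      rw [hfr s hs]
      congr 1
      have : k * π * (2 * α * (1 - s)) / α = k * (2 * π) - 2 * π * k * s := by
        field_simp
      rw [this, cos_nat_mul_two_pi_sub]
    rw [e1, e2, cosine_half_integrals hα (fun θ => h θ * cos (k * π * θ / α)),
      cosine_half_integrals' hα (fun θ => h θ * cos (k * π * θ / α))]
    field_simp
    ring
  -- sine coefficients
  have hB : ∀ k : ℕ, (∫ t in (0:ℝ)..1, f t * sin (2 * π * k * t)) = 0 := by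
    intro k
    have hint : ∀ a b : ℝ, IntervalIntegrable (fun t => f t * sin (2 * π * k * t)) volume a b :=
      fun a b => (hfc.mul (by fun_prop)).intervalIntegrable a b
    rw [← intervalIntegral.integral_add_adjacent_intervals (hint 0 (1 / 2)) (hint (1 / 2) 1)]
    have e1 : (∫ t in (0:ℝ)..(1 / 2), f t * sin (2 * π * k * t))
        = ∫ s in (0:ℝ)..(1 / 2), (fun θ => h θ * sin (k * π * θ / α)) (2 * α * s) := by
      apply intervalIntegral.integral_congr
      intro s hs
      rw [uIcc_of_le (by norm_num)] at hs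
      show f s * sin (2 * π * k * s) = h (2 * α * s) * sin (k * π * (2 * α * s) / α)
      rw [hfl s hs]
      have : k * π * (2 * α * s) / α = 2 * π * k * s := by
        field_simp
      rw [this]
    have e2 : (∫ t in (1 / 2 : ℝ)..1, f t * sin (2 * π * k * t))
        = ∫ s in (1 / 2 : ℝ)..1, (fun θ => -(h θ * sin (k * π * θ / α))) (2 * α * (1 - s)) := by
      apply intervalIntegral.integral_congr
      intro s hs
      rw [uIcc_of_le (by norm_num)] at hs
      show f s * sin (2 * π * k * s)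
        = -(h (2 * α * (1 - s)) * sin (k * π * (2 * α * (1 - s)) / α))
      rw [hfr s hs]
      have : k * π * (2 * α * (1 - s)) / α = k * (2 * π) - 2 * π * k * s := by
        field_simp
      rw [this, sin_nat_mul_two_pi_sub]
      ring
    rw [e1, e2, cosine_half_integrals hα (fun θ => h θ * sin (k * π * θ / α)),
      cosine_half_integrals' hα (fun θ => -(h θ * sin (k * π * θ / α))),
      intervalIntegral.integral_neg]
    ring
  intro θ hθ
  have hfin := Vale.Agent.Lib.P222.fourier_finite hfc hper 2 (by norm_num)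
    (fun k hk2 => by rw [hA k, hk k hk2, mul_zero]) (fun k _ => hB k) (θ / (2 * α))
  have hy0 : 0 ≤ θ / (2 * α) := by
    have := hθ.1
    positivity
  have hy1 : θ / (2 * α) ≤ 1 / 2 := by
    rw [div_le_div_iff₀ (by positivity) (by norm_num)]
    nlinarith [hθ.2]
  have hfy : f (θ / (2 * α)) = h θ := by
    rw [hfl _ ⟨hy0, hy1⟩]
    congr 1
    field_simp
  rw [hfy] at hfin
  have e0 : (∫ θ in (0:ℝ)..α, h θ * cos (((0 : ℕ) : ℝ) * π * θ / α)) = ∫ s in (0:ℝ)..α, h s := by
    simp
  have e1 : (∫ θ in (0:ℝ)..α, h θ * cos (((1 : ℕ) : ℝ) * π * θ / α))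
      = ∫ s in (0:ℝ)..α, h s * cos (π * s / α) := by
    simp
  have c0 : cos (2 * π * ((0 : ℕ) : ℝ) * (θ / (2 * α))) = 1 := by simp
  have c1 : cos (2 * π * ((1 : ℕ) : ℝ) * (θ / (2 * α))) = cos (π * θ / α) := by
    have : 2 * π * ((1 : ℕ) : ℝ) * (θ / (2 * α)) = π * θ / α := by
      push_cast
      field_simp
    rw [this]
  have he0 : Vale.Agent.Lib.P222.eps 0 = 1 := by simp [Vale.Agent.Lib.P222.eps]
  have he1 : Vale.Agent.Lib.P222.eps 1 = 2 := by simp [Vale.Agent.Lib.P222.eps]
  rw [hfin, Finset.sum_range_succ, Finset.sum_range_one, hB 0, hB 1, hA 0, hA 1, e0, e1, c0, c1,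
    he0, he1]
  ring

end Vale.Agent.Lib.P071
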