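import Mathlib
import Vale.Agent.Lib.P071.Defs

namespace Vale.Agent.Lib.P071

open Set MeasureTheory Real

/-- Differentiation under the integral sign on `[0, α]` for jointly continuous data. -/
lemma Modes_hasDerivAt_integral {G G' : ℝ → ℝ → ℝ} {c : ℝ → ℝ} {α : ℝ} (hα : 0 ≤ α)
    (hG : Continuous (fun p : ℝ × ℝ => G p.1 p.2))
    (hG' : Continuous (fun p : ℝ × ℝ => G' p.1 p.2))
    (hc : Continuous c) (hd : ∀ x y, HasDerivAt (fun t => G t y) (G' x y) x) (x₀ : ℝ) :
    HasDerivAt (fun x => ∫ y in (0:ℝ)..α, G x y * c y) (∫ y in (0:ℝ)..α, G' x₀ y * c y) x₀ := by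
  have hcomp : IsCompact (Icc (x₀ - 1) (x₀ + 1) ×ˢ Icc (0:ℝ) α) :=
    isCompact_Icc.prod isCompact_Icc
  have hcont : Continuous (fun p : ℝ × ℝ => G' p.1 p.2 * c p.2) :=
    hG'.mul (hc.comp continuous_snd)
  obtain ⟨C, hC⟩ := hcomp.exists_bound_of_continuousOn hcont.continuousOn
  have hGx : ∀ x, Continuous (fun y => G x y * c y) := fun x =>
    (hG.comp (continuous_const.prodMk continuous_id)).mul hc
  have hG'x : ∀ x, Continuous (fun y => G' x y * c y) := fun x =>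
    (hG'.comp (continuous_const.prodMk continuous_id)).mul hc
  have h := intervalIntegral.hasDerivAt_integral_of_dominated_loc_of_deriv_le
    (μ := volume) (F := fun x y => G x y * c y) (F' := fun x y => G' x y * c y) (x₀ := x₀)
    (s := Ioo (x₀ - 1) (x₀ + 1)) (a := 0) (b := α) (bound := fun _ => C)
    (Ioo_mem_nhds (by linarith) (by linarith))
    (Filter.Eventually.of_forall fun x => (hGx x).aestronglyMeasurable)
    ((hGx x₀).intervalIntegrable 0 α)
    (hG'x x₀).aestronglyMeasurable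
    (Filter.Eventually.of_forall fun t ht x hx => by
      rw [uIoc_of_le hα] at ht
      exact hC (x, t) ⟨⟨hx.1.le, hx.2.le⟩, ⟨ht.1.le, ht.2⟩⟩)
    intervalIntegrable_const
    (Filter.Eventually.of_forall fun t _ x _ => (hd x t).mul_const (c t))
  exact h.2

lemma Modes_slice_fst {g : ℝ × ℝ → ℝ} (hg : Differentiable ℝ g) (x y : ℝ) :
    HasDerivAt (fun t => g (t, y)) (fderiv ℝ g (x, y) (1, 0)) x := by
  have h1 : HasDerivAt (fun t : ℝ => (t, y)) ((1:ℝ), (0:ℝ)) x :=
    (hasDerivAt_id x).prodMk (hasDerivAt_const x y)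
  exact (hg (x, y)).hasFDerivAt.comp_hasDerivAt x h1

lemma Modes_slice_snd {g : ℝ × ℝ → ℝ} (hg : Differentiable ℝ g) (x y : ℝ) :
    HasDerivAt (fun t => g (x, t)) (fderiv ℝ g (x, y) (0, 1)) y := by
  have h1 : HasDerivAt (fun t : ℝ => (x, t)) ((0:ℝ), (1:ℝ)) y :=
    (hasDerivAt_const y x).prodMk (hasDerivAt_id y)
  exact (hg (x, y)).hasFDerivAt.comp_hasDerivAt y h1

/-- Integrating by parts twice against `cos (ω y)` on `[0, α]` with Neumann data. -/
lemma Modes_ibp {f f' f'' : ℝ → ℝ} {α ω : ℝ}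
    (hf : ∀ y, HasDerivAt f (f' y) y) (hf' : ∀ y, HasDerivAt f' (f'' y) y)
    (hf''c : Continuous f'') (h0 : f' 0 = 0) (h1 : f' α = 0) (hs : sin (ω * α) = 0) :
    ∫ y in (0:ℝ)..α, f'' y * cos (ω * y) = -ω ^ 2 * ∫ y in (0:ℝ)..α, f y * cos (ω * y) := by
  have hf'c : Continuous f' := continuous_iff_continuousAt.2 fun y => (hf' y).continuousAt
  have hlin : ∀ y : ℝ, HasDerivAt (fun y : ℝ => ω * y) ω y := fun y => by
    simpa using (hasDerivAt_id y).const_mul ω
  have hcos : ∀ y : ℝ, HasDerivAt (fun y : ℝ => cos (ω * y)) (-sin (ω * y) * ω) y :=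
    fun y => (hlin y).cos
  have hsin : ∀ y : ℝ, HasDerivAt (fun y : ℝ => sin (ω * y)) (cos (ω * y) * ω) y :=
    fun y => (hlin y).sin
  have hcc : Continuous (fun y : ℝ => cos (ω * y)) := by fun_prop
  have hsc : Continuous (fun y : ℝ => sin (ω * y)) := by fun_prop
  have e1 := intervalIntegral.integral_mul_deriv_eq_deriv_mul (a := 0) (b := α)
    (u := fun y => cos (ω * y)) (v := f') (u' := fun y => -sin (ω * y) * ω) (v' := f'')
    (fun y _ => hcos y) (fun y _ => hf' y)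
    ((hsc.neg.mul continuous_const).intervalIntegrable _ _) (hf''c.intervalIntegrable _ _)
  have e2 := intervalIntegral.integral_mul_deriv_eq_deriv_mul (a := 0) (b := α)
    (u := fun y => sin (ω * y)) (v := f) (u' := fun y => cos (ω * y) * ω) (v' := f')
    (fun y _ => hsin y) (fun y _ => hf y)
    ((hcc.mul continuous_const).intervalIntegrable _ _) (hf'c.intervalIntegrable _ _)
  simp only [h0, h1, hs, mul_zero, sub_zero, zero_mul, sin_zero, zero_sub] at e1 e2
  have e3 : ∫ y in (0:ℝ)..α, f'' y * cos (ω * y) = ∫ y in (0:ℝ)..α, cos (ω * y) * f'' y := by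
    congr 1
    ext y
    ring
  have e4 : ∫ y in (0:ℝ)..α, -sin (ω * y) * ω * f' y
      = -ω * ∫ y in (0:ℝ)..α, sin (ω * y) * f' y := by
    rw [← intervalIntegral.integral_const_mul]
    congr 1
    ext y
    ring
  have e5 : ∫ y in (0:ℝ)..α, cos (ω * y) * ω * f y
      = ω * ∫ y in (0:ℝ)..α, f y * cos (ω * y) := by
    rw [← intervalIntegral.integral_const_mul]
    congr 1
    ext y
    ring
  rw [e3, e1, e4, e2, e5]
  ring

theorem neumann_mode_of_pde {t₁ t₂ α μ : ℝ} (hα : 0 < α) {w : ℝ → ℝ} {u : ℝ × ℝ → ℝ}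
    (hu : ContDiff ℝ 2 u)
    (hpde : ∀ t ∈ Icc t₁ t₂, ∀ θ ∈ Icc (0:ℝ) α,
        deriv (fun s => deriv (fun r => u (r, θ)) s) t
          + deriv (fun s => deriv (fun r => u (t, r)) s) θ = - (μ * w t) * u (t, θ))
    (hN₁ : ∀ θ ∈ Icc (0:ℝ) α,
        deriv (fun r => u (r, θ)) t₁ = 0 ∧ deriv (fun r => u (r, θ)) t₂ = 0)
    (hN₂ : ∀ t ∈ Icc t₁ t₂,
        deriv (fun r => u (t, r)) 0 = 0 ∧ deriv (fun r => u (t, r)) α = 0)
    (k : ℕ) :
    ∃ a' a'' : ℝ → ℝ,
      (∀ t, HasDerivAt (fun t => ∫ θ in (0:ℝ)..α, u (t, θ) * cos (k * π * θ / α)) (a' t) t) ∧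
      (∀ t, HasDerivAt a' (a'' t) t) ∧ Continuous a'' ∧
      (∀ t ∈ Icc t₁ t₂, a'' t
        = ((k * π / α) ^ 2 - μ * w t) * ∫ θ in (0:ℝ)..α, u (t, θ) * cos (k * π * θ / α)) ∧
      a' t₁ = 0 ∧ a' t₂ = 0 := by
  have hud : Differentiable ℝ u := hu.differentiable (by norm_num)
  have hu1 : ContDiff ℝ 1 (fderiv ℝ u) := hu.fderiv_right (by norm_num)
  have hg1 : ContDiff ℝ 1 (fun p => fderiv ℝ u p ((1:ℝ), (0:ℝ))) :=
    hu1.clm_apply contDiff_const
  have hg2 : ContDiff ℝ 1 (fun p => fderiv ℝ u p ((0:ℝ), (1:ℝ))) :=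
    hu1.clm_apply contDiff_const
  have hg1d : Differentiable ℝ (fun p => fderiv ℝ u p ((1:ℝ), (0:ℝ))) :=
    hg1.differentiable (by norm_num)
  have hg2d : Differentiable ℝ (fun p => fderiv ℝ u p ((0:ℝ), (1:ℝ))) :=
    hg2.differentiable (by norm_num)
  have hdx : ∀ x y, HasDerivAt (fun t => u (t, y)) (fderiv ℝ u (x, y) (1, 0)) x :=
    Modes_slice_fst hud
  have hdy : ∀ x y, HasDerivAt (fun t => u (x, t)) (fderiv ℝ u (x, y) (0, 1)) y :=
    Modes_slice_snd hud
  have hdxx : ∀ x y, HasDerivAt (fun t => fderiv ℝ u (t, y) (1, 0))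
      (fderiv ℝ (fun p => fderiv ℝ u p (1, 0)) (x, y) (1, 0)) x :=
    Modes_slice_fst hg1d
  have hdyy : ∀ x y, HasDerivAt (fun t => fderiv ℝ u (x, t) (0, 1))
      (fderiv ℝ (fun p => fderiv ℝ u p (0, 1)) (x, y) (0, 1)) y :=
    Modes_slice_snd hg2d
  have hc : Continuous (fun p : ℝ × ℝ => u (p.1, p.2)) := hu.continuous
  have hcx : Continuous (fun p : ℝ × ℝ => fderiv ℝ u (p.1, p.2) (1, 0)) := hg1.continuous
  have hcxx : Continuous (fun p : ℝ × ℝ =>
      fderiv ℝ (fun p => fderiv ℝ u p (1, 0)) (p.1, p.2) (1, 0)) :=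
    (hg1.continuous_fderiv (by norm_num)).clm_apply continuous_const
  have hcyy : Continuous (fun p : ℝ × ℝ =>
      fderiv ℝ (fun p => fderiv ℝ u p (0, 1)) (p.1, p.2) (0, 1)) :=
    (hg2.continuous_fderiv (by norm_num)).clm_apply continuous_const
  have hcw : Continuous (fun θ : ℝ => cos (k * π * θ / α)) := by fun_prop
  have hslice : ∀ (G : ℝ × ℝ → ℝ), Continuous G → ∀ t : ℝ, Continuous (fun y => G (t, y)) :=
    fun G hG t => hG.comp (continuous_const.prodMk continuous_id)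
  have hwform : ∀ θ : ℝ, cos (k * π * θ / α) = cos (k * π / α * θ) := fun θ => by
    congr 1
    ring
  refine ⟨fun t => ∫ θ in (0:ℝ)..α, fderiv ℝ u (t, θ) (1, 0) * cos (k * π * θ / α),
    fun t => ∫ θ in (0:ℝ)..α,
      fderiv ℝ (fun p => fderiv ℝ u p (1, 0)) (t, θ) (1, 0) * cos (k * π * θ / α),
    ?_, ?_, ?_, ?_, ?_, ?_⟩
  · intro t
    exact Modes_hasDerivAt_integral hα.le (G := fun x y => u (x, y))
      (G' := fun x y => fderiv ℝ u (x, y) (1, 0)) hc hcx hcw hdx t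
  · intro t
    exact Modes_hasDerivAt_integral hα.le (G := fun x y => fderiv ℝ u (x, y) (1, 0))
      (G' := fun x y => fderiv ℝ (fun p => fderiv ℝ u p (1, 0)) (x, y) (1, 0)) hcx hcxx hcw
      hdxx t
  · have hunc : Continuous (Function.uncurry (fun (t θ : ℝ) =>
        fderiv ℝ (fun p => fderiv ℝ u p (1, 0)) (t, θ) (1, 0) * cos (k * π * θ / α))) := by
      have h1 : Continuous (fun p : ℝ × ℝ =>
          fderiv ℝ (fun p => fderiv ℝ u p (1, 0)) (p.1, p.2) (1, 0) * cos (k * π * p.2 / α)) :=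
        hcxx.mul (hcw.comp continuous_snd)
      exact h1
    exact intervalIntegral.continuous_parametric_intervalIntegral_of_continuous' hunc 0 α
  · intro t ht
    have hy0 : fderiv ℝ u (t, 0) (0, 1) = 0 := by
      rw [← (hdy t 0).deriv]
      exact (hN₂ t ht).1
    have hyα : fderiv ℝ u (t, α) (0, 1) = 0 := by
      rw [← (hdy t α).deriv]
      exact (hN₂ t ht).2
    have hsin : sin (k * π / α * α) = 0 := by
      rw [div_mul_cancel₀ _ hα.ne']
      exact Real.sin_nat_mul_pi k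
    have hibp := Modes_ibp (f := fun y => u (t, y)) (f' := fun y => fderiv ℝ u (t, y) (0, 1))
      (f'' := fun y => fderiv ℝ (fun p => fderiv ℝ u p (0, 1)) (t, y) (0, 1))
      (α := α) (ω := k * π / α) (fun y => hdy t y) (fun y => hdyy t y)
      (hslice _ ((hg2.continuous_fderiv (by norm_num)).clm_apply continuous_const) t)
      hy0 hyα hsin
    have hpt : ∀ θ ∈ uIcc (0:ℝ) α,
        fderiv ℝ (fun p => fderiv ℝ u p (1, 0)) (t, θ) (1, 0) * cos (k * π * θ / α)
          = -(fderiv ℝ (fun p => fderiv ℝ u p (0, 1)) (t, θ) (0, 1) * cos (k * π / α * θ))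
            - μ * w t * (u (t, θ) * cos (k * π / α * θ)) := by
      intro θ hθ
      rw [uIcc_of_le hα.le] at hθ
      have h1 : (fun s => deriv (fun r => u (r, θ)) s) = fun s => fderiv ℝ u (s, θ) (1, 0) :=
        funext fun s => (hdx s θ).deriv
      have h2 : (fun s => deriv (fun r => u (t, r)) s) = fun s => fderiv ℝ u (t, s) (0, 1) :=
        funext fun s => (hdy t s).deriv
      have h3 := hpde t ht θ hθ
      rw [h1, h2, (hdxx t θ).deriv, (hdyy t θ).deriv] at h3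
      have h4 : fderiv ℝ (fun p => fderiv ℝ u p (1, 0)) (t, θ) (1, 0)
          = -fderiv ℝ (fun p => fderiv ℝ u p (0, 1)) (t, θ) (0, 1) - μ * w t * u (t, θ) := by
        linarith
      rw [h4, hwform θ]
      ring
    have hcw' : Continuous (fun θ : ℝ => cos (k * π / α * θ)) := by fun_prop
    show ∫ θ in (0:ℝ)..α,
        fderiv ℝ (fun p => fderiv ℝ u p (1, 0)) (t, θ) (1, 0) * cos (k * π * θ / α)
      = ((k * π / α) ^ 2 - μ * w t) * ∫ θ in (0:ℝ)..α, u (t, θ) * cos (k * π * θ / α)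
    rw [intervalIntegral.integral_congr hpt, intervalIntegral.integral_sub,
      intervalIntegral.integral_neg, intervalIntegral.integral_const_mul, hibp]
    · have e : ∫ θ in (0:ℝ)..α, u (t, θ) * cos (k * π * θ / α)
          = ∫ θ in (0:ℝ)..α, u (t, θ) * cos (k * π / α * θ) := by
        congr 1
        ext θ
        rw [hwform θ]
      rw [e]
      ring
    · exact (((hslice _ ((hg2.continuous_fderiv (by norm_num)).clm_apply continuous_const) t).mul
        hcw').neg).intervalIntegrable 0 α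
    · exact (continuous_const.mul ((hslice u hu.continuous t).mul hcw')).intervalIntegrable 0 α
  · show ∫ θ in (0:ℝ)..α, fderiv ℝ u (t₁, θ) (1, 0) * cos (k * π * θ / α) = 0
    have hz : ∀ θ ∈ uIcc (0:ℝ) α, fderiv ℝ u (t₁, θ) (1, 0) * cos (k * π * θ / α) = 0 := by
      intro θ hθ
      rw [uIcc_of_le hα.le] at hθ
      rw [← (hdx t₁ θ).deriv, (hN₁ θ hθ).1, zero_mul]
    rw [intervalIntegral.integral_congr hz]
    simp
  · show ∫ θ in (0:ℝ)..α, fderiv ℝ u (t₂, θ) (1, 0) * cos (k * π * θ / α) = 0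
    have hz : ∀ θ ∈ uIcc (0:ℝ) α, fderiv ℝ u (t₂, θ) (1, 0) * cos (k * π * θ / α) = 0 := by
      intro θ hθ
      rw [uIcc_of_le hα.le] at hθ
      rw [← (hdx t₂ θ).deriv, (hN₁ θ hθ).2, zero_mul]
    rw [intervalIntegral.integral_congr hz]
    simp

end Vale.Agent.Lib.P071
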