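import Mathlib
import Vale.Agent.Lib.P071.Defs

namespace Vale.Agent.Lib.P071

open Set MeasureTheory Real Filter Topology

/-- A twice differentiable function `a` with `a'' = Q a` on `[t₁,t₂]` and vanishing derivative at
both endpoints. -/
structure NeumannMode (t₁ t₂ : ℝ) (Q : ℝ → ℝ) (a a' a'' : ℝ → ℝ) : Prop where
  d1 : ∀ t, HasDerivAt a (a' t) t
  d2 : ∀ t, HasDerivAt a' (a'' t) t
  c2 : Continuous a''
  ode : ∀ t ∈ Icc t₁ t₂, a'' t = Q t * a t
  n1 : a' t₁ = 0
  n2 : a' t₂ = 0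

lemma NeumannMode.cont {t₁ t₂ : ℝ} {Q a a' a'' : ℝ → ℝ} (h : NeumannMode t₁ t₂ Q a a' a'') :
    Continuous a := continuous_iff_continuousAt.2 fun t => (h.d1 t).continuousAt

lemma NeumannMode.cont' {t₁ t₂ : ℝ} {Q a a' a'' : ℝ → ℝ} (h : NeumannMode t₁ t₂ Q a a' a'') :
    Continuous a' := continuous_iff_continuousAt.2 fun t => (h.d2 t).continuousAt

/-- A continuous function whose square has zero integral over `[a,b]` vanishes on `[a,b]`. -/
lemma eq_zero_of_integral_sq_eq_zero {g : ℝ → ℝ} (hg : Continuous g) {a b : ℝ} (hab : a < b)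
    (h : ∫ t in a..b, g t ^ 2 = 0) : ∀ t ∈ Icc a b, g t = 0 := by
  have hg2 : Continuous (fun t => g t ^ 2) := hg.pow 2
  set F : ℝ → ℝ := fun t => ∫ s in a..t, g s ^ 2 with hF
  have hFd : ∀ t, HasDerivAt F (g t ^ 2) t := fun t =>
    (hg2.integral_hasStrictDerivAt a t).hasDerivAt
  have hmono : Monotone F := by
    apply monotone_of_deriv_nonneg
    · exact fun t => (hFd t).differentiableAt
    · intro t
      rw [(hFd t).deriv]
      positivity
  have hFa : F a = 0 := by simp [hF]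
  have hFb : F b = 0 := h
  have hF0 : ∀ t ∈ Icc a b, F t = 0 := by
    intro t ht
    have h1 := hmono ht.1
    have h2 := hmono ht.2
    rw [hFa] at h1
    rw [hFb] at h2
    linarith
  have hIoo : ∀ t ∈ Ioo a b, g t = 0 := by
    intro t ht
    have hev : F =ᶠ[𝓝 t] fun _ => (0:ℝ) := by
      filter_upwards [Ioo_mem_nhds ht.1 ht.2] with s hs
      exact hF0 s (Ioo_subset_Icc_self hs)
    have h0 : HasDerivAt F 0 t := (hasDerivAt_const t (0:ℝ)).congr_of_eventuallyEq hev
    have := (hFd t).unique h0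
    exact pow_eq_zero_iff (two_ne_zero) |>.1 this
  have hclosed : IsClosed {t | g t = 0} := isClosed_eq hg continuous_const
  have hsub : Ioo a b ⊆ {t | g t = 0} := fun t ht => hIoo t ht
  have := closure_minimal hsub hclosed
  rw [closure_Ioo hab.ne] at this
  exact fun t ht => this ht

/-- Uniqueness: a mode with `a t₀ = 0` and `a' t₀ = 0` at some `t₀ ∈ [t₁,t₂]` vanishes on
`[t₁,t₂]`. -/
lemma NeumannMode.unique {t₁ t₂ : ℝ} {Q a a' a'' : ℝ → ℝ} (h : NeumannMode t₁ t₂ Q a a' a'')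
    (hQ : Continuous Q) {t₀ : ℝ} (ht₀ : t₀ ∈ Icc t₁ t₂) (h0 : a t₀ = 0) (h1 : a' t₀ = 0) :
    ∀ t ∈ Icc t₁ t₂, a t = 0 := by
  obtain ⟨B, hB⟩ := isCompact_Icc.exists_bound_of_continuousOn (hQ.continuousOn (s := Icc t₁ t₂))
  have hB0 : 0 ≤ B := le_trans (norm_nonneg _) (hB t₀ ht₀)
  let v : ℝ → ℝ × ℝ → ℝ × ℝ := fun t y => (y.2, Q t * y.1)
  let F : ℝ → ℝ × ℝ := fun t => (a t, a' t)
  let G : ℝ → ℝ × ℝ := fun _ => (0, 0)
  have hv : ∀ t ∈ Icc t₁ t₂, LipschitzOnWith (Real.toNNReal (max 1 B)) (v t) univ := by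
    intro t ht
    apply LipschitzWith.lipschitzOnWith
    apply LipschitzWith.of_dist_le_mul
    intro y z
    have hK : ((Real.toNNReal (max 1 B) : NNReal) : ℝ) = max 1 B :=
      Real.coe_toNNReal _ (le_trans zero_le_one (le_max_left _ _))
    rw [hK, Prod.dist_eq, Prod.dist_eq]
    have hd1 : dist y.2 z.2 ≤ max 1 B * max (dist y.1 z.1) (dist y.2 z.2) := by
      calc dist y.2 z.2 ≤ 1 * max (dist y.1 z.1) (dist y.2 z.2) := by
            rw [one_mul]; exact le_max_right _ _
        _ ≤ max 1 B * max (dist y.1 z.1) (dist y.2 z.2) := by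
            apply mul_le_mul_of_nonneg_right (le_max_left _ _)
            exact le_trans dist_nonneg (le_max_left _ _)
    have hd2 : dist (Q t * y.1) (Q t * z.1) ≤ max 1 B * max (dist y.1 z.1) (dist y.2 z.2) := by
      rw [Real.dist_eq, ← mul_sub, abs_mul]
      have hQt : |Q t| ≤ B := by
        have := hB t ht
        rwa [Real.norm_eq_abs] at this
      calc |Q t| * |y.1 - z.1| ≤ B * |y.1 - z.1| :=
            mul_le_mul_of_nonneg_right hQt (abs_nonneg _)
        _ ≤ max 1 B * max (dist y.1 z.1) (dist y.2 z.2) := by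
            apply mul_le_mul (le_max_right _ _) _ (abs_nonneg _)
              (le_trans zero_le_one (le_max_left _ _))
            rw [← Real.dist_eq]; exact le_max_left _ _
    exact max_le hd1 hd2
  have hFd : ∀ t ∈ Icc t₁ t₂, HasDerivAt F (v t (F t)) t := by
    intro t ht
    have h2 : HasDerivAt a' (Q t * a t) t := by
      have := h.d2 t
      rwa [h.ode t ht] at this
    exact (h.d1 t).prodMk h2
  have hGd : ∀ t, HasDerivAt G (v t (G t)) t := by
    intro t
    have : v t (G t) = 0 := by simp [v, G]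
    rw [this]
    exact hasDerivAt_const t _
  have hFc : Continuous F := h.cont.prodMk h.cont'
  have hGc : Continuous G := continuous_const
  have heq : F t₀ = G t₀ := by simp [F, G, h0, h1]
  have hright : EqOn F G (Icc t₀ t₂) := by
    apply ODE_solution_unique_of_mem_Icc_right (v := v) (s := fun _ => univ)
      (K := Real.toNNReal (max 1 B))
    · exact fun t ht => hv t ⟨le_trans ht₀.1 ht.1, ht.2.le⟩
    · exact hFc.continuousOn
    · exact fun t ht => (hFd t ⟨le_trans ht₀.1 ht.1, ht.2.le⟩).hasDerivWithinAt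
    · exact fun t _ => mem_univ _
    · exact hGc.continuousOn
    · exact fun t _ => (hGd t).hasDerivWithinAt
    · exact fun t _ => mem_univ _
    · exact heq
  have hleft : EqOn F G (Icc t₁ t₀) := by
    apply ODE_solution_unique_of_mem_Icc_left (v := v) (s := fun _ => univ)
      (K := Real.toNNReal (max 1 B))
    · exact fun t ht => hv t ⟨ht.1.le, le_trans ht.2 ht₀.2⟩
    · exact hFc.continuousOn
    · exact fun t ht => (hFd t ⟨ht.1.le, le_trans ht.2 ht₀.2⟩).hasDerivWithinAt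
    · exact fun t _ => mem_univ _
    · exact hGc.continuousOn
    · exact fun t _ => (hGd t).hasDerivWithinAt
    · exact fun t _ => mem_univ _
    · exact heq
  intro t ht
  rcases le_total t t₀ with hle | hle
  · have := hleft ⟨ht.1, hle⟩
    exact (Prod.mk.inj this).1
  · have := hright ⟨hle, ht.2⟩
    exact (Prod.mk.inj this).1

/-- Energy identity on `[t₁,t₀]`. -/
lemma NeumannMode.energy {t₁ t₂ : ℝ} {Q a a' a'' : ℝ → ℝ} (h : NeumannMode t₁ t₂ Q a a' a'')
    {t₀ : ℝ} (ht₀ : t₀ ∈ Icc t₁ t₂) :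
    ∫ t in t₁..t₀, (a' t ^ 2 + Q t * a t ^ 2) = a t₀ * a' t₀ := by
  have hd : ∀ t, HasDerivAt (fun t => a t * a' t) (a' t * a' t + a t * a'' t) t := fun t =>
    (h.d1 t).mul (h.d2 t)
  have hcont : Continuous (fun t => a' t * a' t + a t * a'' t) :=
    (h.cont'.mul h.cont').add (h.cont.mul h.c2)
  have hftc := intervalIntegral.integral_eq_sub_of_hasDerivAt (a := t₁) (b := t₀)
    (fun t _ => hd t) (hcont.intervalIntegrable _ _)
  have hcongr : ∫ t in t₁..t₀, (a' t ^ 2 + Q t * a t ^ 2)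
      = ∫ t in t₁..t₀, (a' t * a' t + a t * a'' t) := by
    apply intervalIntegral.integral_congr
    intro t ht
    rw [uIcc_of_le ht₀.1] at ht
    have := h.ode t ⟨ht.1, le_trans ht.2 ht₀.2⟩
    simp only
    rw [this]
    ring
  rw [hcongr, hftc, h.n1]
  ring

/-- The first integral: `∫ Q a = a'(t₀)` on `[t₁,t₀]`. -/
lemma NeumannMode.linear {t₁ t₂ : ℝ} {Q a a' a'' : ℝ → ℝ} (h : NeumannMode t₁ t₂ Q a a' a'')
    {t₀ : ℝ} (ht₀ : t₀ ∈ Icc t₁ t₂) :
    ∫ t in t₁..t₀, Q t * a t = a' t₀ := by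
  have hftc := intervalIntegral.integral_eq_sub_of_hasDerivAt (a := t₁) (b := t₀)
    (fun t _ => h.d2 t) (h.c2.intervalIntegrable _ _)
  have hcongr : ∫ t in t₁..t₀, Q t * a t = ∫ t in t₁..t₀, a'' t := by
    apply intervalIntegral.integral_congr
    intro t ht
    rw [uIcc_of_le ht₀.1] at ht
    exact (h.ode t ⟨ht.1, le_trans ht.2 ht₀.2⟩).symm
  rw [hcongr, hftc, h.n1, sub_zero]

end Vale.Agent.Lib.P071
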