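import Mathlib
import Vale.Agent.Lib.P071.Defs

namespace Vale.Agent.Lib.P071

open Set MeasureTheory Real

theorem reduce_int_cos {α : ℝ} (hα : 0 < α) : ∫ θ in (0:ℝ)..α, cos (π * θ / α) = 0 := by
  have hne : π / α ≠ 0 := div_ne_zero pi_ne_zero hα.ne'
  have e : (fun θ : ℝ => cos (π * θ / α)) = fun θ => cos (π / α * θ) := by
    funext θ; congr 1; ring
  rw [e, intervalIntegral.integral_comp_mul_left (fun x => cos x) hne]
  have e2 : π / α * α = π := by field_simp
  rw [mul_zero, e2, integral_cos]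
  simp

theorem reduce_int_cos_sq {α : ℝ} (hα : 0 < α) :
    ∫ θ in (0:ℝ)..α, cos (π * θ / α) ^ 2 = α / 2 := by
  have hne : π / α ≠ 0 := div_ne_zero pi_ne_zero hα.ne'
  have e : (fun θ : ℝ => cos (π * θ / α) ^ 2) = fun θ => cos (π / α * θ) ^ 2 := by
    funext θ; congr 2; ring
  rw [e, intervalIntegral.integral_comp_mul_left (fun x => cos x ^ 2) hne]
  have e2 : π / α * α = π := by field_simp
  rw [mul_zero, e2, integral_cos_sq]
  simp only [cos_pi, sin_pi, cos_zero, sin_zero, smul_eq_mul]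
  field_simp
  ring

theorem reduce_int_sin_sq {α : ℝ} (hα : 0 < α) :
    ∫ θ in (0:ℝ)..α, sin (π * θ / α) ^ 2 = α / 2 := by
  have hne : π / α ≠ 0 := div_ne_zero pi_ne_zero hα.ne'
  have e : (fun θ : ℝ => sin (π * θ / α) ^ 2) = fun θ => sin (π / α * θ) ^ 2 := by
    funext θ; congr 2; ring
  rw [e, intervalIntegral.integral_comp_mul_left (fun x => sin x ^ 2) hne]
  have e2 : π / α * α = π := by field_simp
  rw [mul_zero, e2, integral_sin_sq]
  simp only [cos_pi, sin_pi, cos_zero, sin_zero, smul_eq_mul]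
  field_simp
  ring

theorem reduce_deriv_sq_integrable {K : NNReal} {c : ℝ → ℝ} (hc : LipschitzWith K c)
    (a b : ℝ) : IntervalIntegrable (fun t => deriv c t ^ 2) volume a b := by
  have hmeas : Measurable (fun t => deriv c t ^ 2) := (measurable_deriv c).pow_const 2
  have hbound : ∀ t, ‖deriv c t ^ 2‖ ≤ (K : ℝ) ^ 2 := by
    intro t
    have h1 : ‖deriv c t‖ ≤ K := norm_deriv_le_of_lipschitz hc
    rw [norm_pow]
    exact pow_le_pow_left₀ (norm_nonneg _) h1 2
  constructor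
  · exact IntegrableOn.of_bound measure_Ioc_lt_top hmeas.aestronglyMeasurable _
      (Filter.Eventually.of_forall hbound)
  · exact IntegrableOn.of_bound measure_Ioc_lt_top hmeas.aestronglyMeasurable _
      (Filter.Eventually.of_forall hbound)

theorem reduce_lip_mode_one {K : NNReal} {c : ℝ → ℝ} (hc : LipschitzWith K c) {M : ℝ}
    (hM : ∀ t, |c t| ≤ M) {α : ℝ} (hα : 0 < α) :
    LipschitzWith (K + Real.toNNReal (M * (π / α)))
      (fun p : ℝ × ℝ => c p.1 * cos (π * p.2 / α)) := by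
  have hM0 : 0 ≤ M := le_trans (abs_nonneg _) (hM 0)
  have hω : 0 ≤ π / α := div_nonneg pi_pos.le hα.le
  apply LipschitzWith.of_dist_le_mul
  intro p q
  rw [Real.dist_eq, Prod.dist_eq, Real.dist_eq, Real.dist_eq]
  have h1 : |c p.1 - c q.1| ≤ K * |p.1 - q.1| := by
    have := hc.dist_le_mul p.1 q.1
    rwa [Real.dist_eq, Real.dist_eq] at this
  have h2 : |cos (π * p.2 / α) - cos (π * q.2 / α)| ≤ π / α * |p.2 - q.2| := by
    refine le_trans (abs_cos_sub_cos_le _ _) ?_
    have e : π * p.2 / α - π * q.2 / α = π / α * (p.2 - q.2) := by ring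
    rw [e, abs_mul, abs_of_nonneg hω]
  have h3 : |cos (π * p.2 / α)| ≤ 1 := abs_cos_le_one _
  have e : c p.1 * cos (π * p.2 / α) - c q.1 * cos (π * q.2 / α) =
      (c p.1 - c q.1) * cos (π * p.2 / α) +
        c q.1 * (cos (π * p.2 / α) - cos (π * q.2 / α)) := by ring
  rw [e]
  have h4 : |(c p.1 - c q.1) * cos (π * p.2 / α)| ≤ K * |p.1 - q.1| := by
    rw [abs_mul]
    calc |c p.1 - c q.1| * |cos (π * p.2 / α)| ≤ |c p.1 - c q.1| * 1 :=
          mul_le_mul_of_nonneg_left h3 (abs_nonneg _)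
      _ ≤ K * |p.1 - q.1| := by rw [mul_one]; exact h1
  have h5 : |c q.1 * (cos (π * p.2 / α) - cos (π * q.2 / α))| ≤
      M * (π / α) * |p.2 - q.2| := by
    rw [abs_mul]
    calc |c q.1| * |cos (π * p.2 / α) - cos (π * q.2 / α)| ≤ M * (π / α * |p.2 - q.2|) :=
          mul_le_mul (hM _) h2 (abs_nonneg _) hM0
      _ = M * (π / α) * |p.2 - q.2| := by ring
  have h6 : |p.1 - q.1| ≤ max |p.1 - q.1| |p.2 - q.2| := le_max_left _ _
  have h7 : |p.2 - q.2| ≤ max |p.1 - q.1| |p.2 - q.2| := le_max_right _ _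
  have hMω : 0 ≤ M * (π / α) := mul_nonneg hM0 hω
  have hcoe : ((K + Real.toNNReal (M * (π / α)) : NNReal) : ℝ) = K + M * (π / α) := by
    rw [NNReal.coe_add, Real.coe_toNNReal _ hMω]
  rw [hcoe]
  calc |(c p.1 - c q.1) * cos (π * p.2 / α) +
        c q.1 * (cos (π * p.2 / α) - cos (π * q.2 / α))|
      ≤ |(c p.1 - c q.1) * cos (π * p.2 / α)| +
        |c q.1 * (cos (π * p.2 / α) - cos (π * q.2 / α))| := abs_add_le _ _
    _ ≤ K * |p.1 - q.1| + M * (π / α) * |p.2 - q.2| := add_le_add h4 h5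
    _ ≤ K * max |p.1 - q.1| |p.2 - q.2| + M * (π / α) * max |p.1 - q.1| |p.2 - q.2| :=
        add_le_add (mul_le_mul_of_nonneg_left h6 K.coe_nonneg)
          (mul_le_mul_of_nonneg_left h7 hMω)
    _ = (K + M * (π / α)) * max |p.1 - q.1| |p.2 - q.2| := by ring

theorem rayleigh_mode_one {t₁ t₂ α μ : ℝ} (ht : t₁ ≤ t₂) (hα : 0 < α) {w : ℝ → ℝ}
    (hw : Continuous w) (hmin : RayleighMin t₁ t₂ α μ w)
    {K : NNReal} {c : ℝ → ℝ} (hc : LipschitzWith K c) {M : ℝ} (hM : ∀ t, |c t| ≤ M) :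
    μ * ∫ t in t₁..t₂, w t * c t ^ 2
      ≤ (∫ t in t₁..t₂, deriv c t ^ 2) + (π / α) ^ 2 * ∫ t in t₁..t₂, c t ^ 2 := by
  have hcc : Continuous c := hc.continuous
  have hlip := reduce_lip_mode_one hc hM hα
  have h_in1 : ∀ t, ∫ θ in (0:ℝ)..α, w t * (c t * cos (π * θ / α)) = 0 := by
    intro t
    have e : (fun θ : ℝ => w t * (c t * cos (π * θ / α))) =
        fun θ => (w t * c t) * cos (π * θ / α) := by funext θ; ring
    rw [e, intervalIntegral.integral_const_mul, reduce_int_cos hα, mul_zero]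
  have h_in2 : ∀ t, ∫ θ in (0:ℝ)..α, w t * (c t * cos (π * θ / α)) ^ 2 =
      w t * c t ^ 2 * (α / 2) := by
    intro t
    have e : (fun θ : ℝ => w t * (c t * cos (π * θ / α)) ^ 2) =
        fun θ => (w t * c t ^ 2) * cos (π * θ / α) ^ 2 := by funext θ; ring
    rw [e, intervalIntegral.integral_const_mul, reduce_int_cos_sq hα]
  have h_in3 : ∀ t, ∫ θ in (0:ℝ)..α,
      (deriv (fun r => c r * cos (π * θ / α)) t ^ 2 +
        deriv (fun r => c t * cos (π * r / α)) θ ^ 2) =
      deriv c t ^ 2 * (α / 2) + c t ^ 2 * (π / α) ^ 2 * (α / 2) := by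
    intro t
    have d1 : ∀ θ : ℝ, deriv (fun r => c r * cos (π * θ / α)) t =
        deriv c t * cos (π * θ / α) := fun θ => deriv_mul_const_field _
    have d2 : ∀ θ : ℝ, deriv (fun r => c t * cos (π * r / α)) θ =
        c t * (-sin (π * θ / α) * (π / α)) := by
      intro θ
      rw [deriv_const_mul_field]
      congr 1
      have hlin : HasDerivAt (fun r : ℝ => π * r / α) (π / α) θ := by
        have := ((hasDerivAt_id θ).const_mul π).div_const α
        simpa using this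
      exact ((Real.hasDerivAt_cos _).comp θ hlin).deriv
    have e : (fun θ : ℝ => deriv (fun r => c r * cos (π * θ / α)) t ^ 2 +
        deriv (fun r => c t * cos (π * r / α)) θ ^ 2) =
        fun θ => deriv c t ^ 2 * cos (π * θ / α) ^ 2 +
          c t ^ 2 * (π / α) ^ 2 * sin (π * θ / α) ^ 2 := by
      funext θ
      rw [d1, d2]; ring
    rw [e]
    have hc1 : Continuous fun θ : ℝ => deriv c t ^ 2 * cos (π * θ / α) ^ 2 := by fun_prop
    have hc2 : Continuous fun θ : ℝ => c t ^ 2 * (π / α) ^ 2 * sin (π * θ / α) ^ 2 := by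
      fun_prop
    rw [intervalIntegral.integral_add (hc1.intervalIntegrable _ _) (hc2.intervalIntegrable _ _),
      intervalIntegral.integral_const_mul, intervalIntegral.integral_const_mul,
      reduce_int_cos_sq hα, reduce_int_sin_sq hα]
  have hmean : (∫ t in t₁..t₂, ∫ θ in (0:ℝ)..α,
      w t * (fun p : ℝ × ℝ => c p.1 * cos (π * p.2 / α)) (t, θ)) = 0 := by
    simp only [h_in1]
    simp
  have key := hmin _ _ hlip hmean
  simp only [h_in2, h_in3] at key
  have hi1 : IntervalIntegrable (fun t => deriv c t ^ 2 * (α / 2)) volume t₁ t₂ :=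
    (reduce_deriv_sq_integrable hc t₁ t₂).mul_const _
  have hi2 : IntervalIntegrable (fun t => c t ^ 2 * (π / α) ^ 2 * (α / 2)) volume t₁ t₂ := by
    apply Continuous.intervalIntegrable
    fun_prop
  rw [intervalIntegral.integral_add hi1 hi2, intervalIntegral.integral_mul_const,
    intervalIntegral.integral_mul_const] at key
  have e3 : (fun t => c t ^ 2 * (π / α) ^ 2 * (α / 2)) =
      fun t => c t ^ 2 * ((π / α) ^ 2 * (α / 2)) := by funext t; ring
  rw [e3, intervalIntegral.integral_mul_const] at key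
  have hα2 : 0 < α / 2 := by linarith
  have key2 : (μ * ∫ t in t₁..t₂, w t * c t ^ 2) * (α / 2) ≤
      ((∫ t in t₁..t₂, deriv c t ^ 2) + (π / α) ^ 2 * ∫ t in t₁..t₂, c t ^ 2) * (α / 2) := by
    linarith
  exact le_of_mul_le_mul_right key2 hα2

theorem rayleigh_mode_zero {t₁ t₂ α μ : ℝ} (ht : t₁ ≤ t₂) (hα : 0 < α) {w : ℝ → ℝ}
    (hw : Continuous w) (hmin : RayleighMin t₁ t₂ α μ w)
    {K : NNReal} {c : ℝ → ℝ} (hc : LipschitzWith K c) {M : ℝ} (hM : ∀ t, |c t| ≤ M)
    (hmean : ∫ t in t₁..t₂, w t * c t = 0) :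
    μ * ∫ t in t₁..t₂, w t * c t ^ 2 ≤ ∫ t in t₁..t₂, deriv c t ^ 2 := by
  have hlip : LipschitzWith (K * 1) (fun p : ℝ × ℝ => c p.1) := hc.comp LipschitzWith.prod_fst
  have h_in1 : ∀ t, ∫ _θ in (0:ℝ)..α, w t * c t = α * (w t * c t) := by
    intro t
    rw [intervalIntegral.integral_const]
    simp
  have h_in2 : ∀ t, ∫ _θ in (0:ℝ)..α, w t * c t ^ 2 = α * (w t * c t ^ 2) := by
    intro t
    rw [intervalIntegral.integral_const]
    simp
  have h_in3 : ∀ t, ∫ θ in (0:ℝ)..α,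
      (deriv (fun r => c r) t ^ 2 + deriv (fun _r : ℝ => c t) θ ^ 2) = α * deriv c t ^ 2 := by
    intro t
    have e : (fun θ : ℝ => deriv (fun r => c r) t ^ 2 + deriv (fun _r : ℝ => c t) θ ^ 2) =
        fun _θ => deriv c t ^ 2 := by
      funext θ
      rw [deriv_const]
      have : (fun r => c r) = c := rfl
      rw [this]; ring
    rw [e, intervalIntegral.integral_const]
    simp
  have hmean' : (∫ t in t₁..t₂, ∫ θ in (0:ℝ)..α,
      w t * (fun p : ℝ × ℝ => c p.1) (t, θ)) = 0 := by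
    simp only [h_in1]
    rw [intervalIntegral.integral_const_mul, hmean, mul_zero]
  have key := hmin _ _ hlip hmean'
  simp only [h_in2, h_in3] at key
  rw [intervalIntegral.integral_const_mul, intervalIntegral.integral_const_mul] at key
  have key2 : (μ * ∫ t in t₁..t₂, w t * c t ^ 2) * α ≤ (∫ t in t₁..t₂, deriv c t ^ 2) * α := by
    linarith
  exact le_of_mul_le_mul_right key2 hα

end Vale.Agent.Lib.P071
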