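import Mathlib
import Vale.Agent.Lib.P071.Defs

namespace Vale.Agent.Lib.P071

open Set MeasureTheory Real

lemma stopped_clamp_mem {a b : ℝ} (hab : a ≤ b) (t : ℝ) : max a (min t b) ∈ Icc a b :=
  ⟨le_max_left _ _, max_le hab (min_le_right _ _)⟩

lemma stopped_clamp_abs_le (a b t t' : ℝ) :
    |max a (min t b) - max a (min t' b)| ≤ |t - t'| := by
  have h1 := abs_max_sub_max_le_max a (min t b) a (min t' b)
  have h2 := abs_min_sub_min_le_max t b t' b
  rw [sub_self, abs_zero] at h1 h2
  have h3 : max 0 |min t b - min t' b| = |min t b - min t' b| := max_eq_right (abs_nonneg _)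
  have h4 : max |t - t'| 0 = |t - t'| := max_eq_left (abs_nonneg _)
  rw [h3] at h1
  rw [h4] at h2
  exact h1.trans h2

lemma stopped_eq_of_mem (g : ℝ → ℝ) {a b t : ℝ} (ht : t ∈ Icc a b) : stopped g a b t = g t := by
  unfold stopped
  rw [min_eq_left ht.2, max_eq_right ht.1]

lemma stopped_eq_of_ge (g : ℝ → ℝ) {a b t : ℝ} (hab : a ≤ b) (ht : b ≤ t) :
    stopped g a b t = g b := by
  unfold stopped
  rw [min_eq_right ht, max_eq_right hab]

lemma stopped_continuous {g : ℝ → ℝ} (hg : Continuous g) (a b : ℝ) :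
    Continuous (stopped g a b) := by
  unfold stopped
  exact hg.comp (continuous_const.max (continuous_id.min continuous_const))

lemma stopped_lipschitz {g g' : ℝ → ℝ} (hg : ∀ t, HasDerivAt g (g' t) t) (hg' : Continuous g')
    {a b : ℝ} (hab : a ≤ b) (s : ℝ) :
    ∃ K : NNReal, LipschitzWith K (fun t => stopped g a b t + s) := by
  obtain ⟨C, hC⟩ := (isCompact_Icc : IsCompact (Icc a b)).exists_bound_of_continuousOn
    hg'.continuousOn
  have hmv : ∀ x ∈ Icc a b, ∀ y ∈ Icc a b, ‖g y - g x‖ ≤ C * ‖y - x‖ := by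
    intro x hx y hy
    exact Convex.norm_image_sub_le_of_norm_hasDerivWithin_le
      (fun z _ => (hg z).hasDerivWithinAt) hC (convex_Icc a b) hx hy
  refine ⟨(max C 0).toNNReal, LipschitzWith.of_dist_le_mul ?_⟩
  intro t t'
  rw [Real.coe_toNNReal _ (le_max_right C 0), Real.dist_eq, Real.dist_eq]
  have h1 : stopped g a b t + s - (stopped g a b t' + s)
      = g (max a (min t b)) - g (max a (min t' b)) := by
    unfold stopped
    ring
  rw [h1]
  have h2 := hmv _ (stopped_clamp_mem hab t') _ (stopped_clamp_mem hab t)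
  rw [Real.norm_eq_abs, Real.norm_eq_abs] at h2
  have h3 := stopped_clamp_abs_le a b t t'
  have h4 : 0 ≤ max C 0 := le_max_right C 0
  have h5 : C ≤ max C 0 := le_max_left C 0
  calc |g (max a (min t b)) - g (max a (min t' b))|
      ≤ C * |max a (min t b) - max a (min t' b)| := h2
    _ ≤ max C 0 * |max a (min t b) - max a (min t' b)| :=
        mul_le_mul_of_nonneg_right h5 (abs_nonneg _)
    _ ≤ max C 0 * |t - t'| := mul_le_mul_of_nonneg_left h3 h4

lemma stopped_bounded {g : ℝ → ℝ} (hg : Continuous g) {a b : ℝ} (hab : a ≤ b) (s : ℝ) :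
    ∃ M : ℝ, ∀ t, |stopped g a b t + s| ≤ M := by
  obtain ⟨C, hC⟩ := (isCompact_Icc : IsCompact (Icc a b)).exists_bound_of_continuousOn
    hg.continuousOn
  refine ⟨C + |s|, fun t => ?_⟩
  have h1 := hC _ (stopped_clamp_mem hab t)
  rw [Real.norm_eq_abs] at h1
  have h2 := abs_add_le (stopped g a b t) s
  unfold stopped at h2 ⊢
  linarith

lemma integral_deriv_stopped_sq {g g' : ℝ → ℝ} (hg : ∀ t, HasDerivAt g (g' t) t)
    (hg' : Continuous g') {a b c : ℝ} (hab : a ≤ b) (hbc : b ≤ c) (s : ℝ) :
    ∫ t in a..c, deriv (fun t => stopped g a b t + s) t ^ 2 = ∫ t in a..b, g' t ^ 2 := by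
  rw [intervalIntegral.integral_of_le (hab.trans hbc), intervalIntegral.integral_of_le hab]
  have hset : Ioc a c ∩ Iic b = Ioc a b := by
    ext t
    simp only [mem_inter_iff, mem_Ioc, mem_Iic]
    constructor
    · rintro ⟨⟨h1, _⟩, h3⟩
      exact ⟨h1, h3⟩
    · rintro ⟨h1, h2⟩
      exact ⟨⟨h1, h2.trans hbc⟩, h2⟩
  rw [← hset, ← setIntegral_indicator measurableSet_Iic]
  apply setIntegral_congr_ae measurableSet_Ioc
  have hne : ∀ᵐ t ∂(volume : Measure ℝ), t ∉ ({b} : Set ℝ) :=
    (Set.countable_singleton b).ae_notMem volume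
  filter_upwards [hne] with t htb htac
  have htb' : t ≠ b := fun h => htb (by rw [h]; exact mem_singleton b)
  rcases lt_or_gt_of_ne htb' with hlt | hgt
  · -- inside the interval
    have hev : (fun t' => stopped g a b t' + s) =ᶠ[nhds t] (fun t' => g t' + s) := by
      filter_upwards [Ioo_mem_nhds htac.1 hlt] with t' ht'
      rw [stopped_eq_of_mem g ⟨ht'.1.le, ht'.2.le⟩]
    rw [hev.deriv_eq, ((hg t).add_const s).deriv, indicator_of_mem (mem_Iic.2 hlt.le)]
  · -- to the right of the interval
    have hev : (fun t' => stopped g a b t' + s) =ᶠ[nhds t] (fun _ => g b + s) := by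
      filter_upwards [Ioi_mem_nhds hgt] with t' ht'
      rw [stopped_eq_of_ge g hab (le_of_lt ht')]
    have hnot : t ∉ Iic b := fun h => not_le_of_gt hgt (mem_Iic.1 h)
    rw [hev.deriv_eq, deriv_const, indicator_of_notMem hnot]
    norm_num

lemma integral_weight_stopped_sq {g w : ℝ → ℝ} (hg : Continuous g) (hw : Continuous w)
    {a b c : ℝ} (hab : a ≤ b) (hbc : b ≤ c) (s : ℝ) :
    ∫ t in a..c, w t * (stopped g a b t + s) ^ 2
      = (∫ t in a..b, w t * (g t + s) ^ 2) + (g b + s) ^ 2 * ∫ t in b..c, w t := by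
  have hcont : Continuous (fun t => w t * (stopped g a b t + s) ^ 2) :=
    hw.mul (((stopped_continuous hg a b).add continuous_const).pow 2)
  rw [← intervalIntegral.integral_add_adjacent_intervals (hcont.intervalIntegrable a b)
    (hcont.intervalIntegrable b c)]
  congr 1
  · apply intervalIntegral.integral_congr
    intro t ht
    rw [uIcc_of_le hab] at ht
    show w t * (stopped g a b t + s) ^ 2 = w t * (g t + s) ^ 2
    rw [stopped_eq_of_mem g ht]
  · rw [← intervalIntegral.integral_const_mul]
    apply intervalIntegral.integral_congr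
    intro t ht
    rw [uIcc_of_le hbc] at ht
    show w t * (stopped g a b t + s) ^ 2 = (g b + s) ^ 2 * w t
    rw [stopped_eq_of_ge g hab ht.1]
    ring

lemma integral_weight_stopped {g w : ℝ → ℝ} (hg : Continuous g) (hw : Continuous w)
    {a b c : ℝ} (hab : a ≤ b) (hbc : b ≤ c) (s : ℝ) :
    ∫ t in a..c, w t * (stopped g a b t + s)
      = (∫ t in a..b, w t * (g t + s)) + (g b + s) * ∫ t in b..c, w t := by
  have hcont : Continuous (fun t => w t * (stopped g a b t + s)) :=
    hw.mul ((stopped_continuous hg a b).add continuous_const)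
  rw [← intervalIntegral.integral_add_adjacent_intervals (hcont.intervalIntegrable a b)
    (hcont.intervalIntegrable b c)]
  congr 1
  · apply intervalIntegral.integral_congr
    intro t ht
    rw [uIcc_of_le hab] at ht
    show w t * (stopped g a b t + s) = w t * (g t + s)
    rw [stopped_eq_of_mem g ht]
  · rw [← intervalIntegral.integral_const_mul]
    apply intervalIntegral.integral_congr
    intro t ht
    rw [uIcc_of_le hbc] at ht
    show w t * (stopped g a b t + s) = (g b + s) * w t
    rw [stopped_eq_of_ge g hab ht.1]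
    ring

end Vale.Agent.Lib.P071
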