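import Mathlib
import Vale.Agent.Lib.P071.Defs
import Vale.Agent.Lib.P071.Ode
import Vale.Agent.Lib.P071.Stopped
import Vale.Agent.Lib.P071.Reduce

namespace Vale.Agent.Lib.P071

open Set MeasureTheory Real Filter Topology

lemma integral_weight_shift_sq {g w : ℝ → ℝ} (hg : Continuous g) (hw : Continuous w) (a b s : ℝ) :
    ∫ t in a..b, w t * (g t + s) ^ 2
      = (∫ t in a..b, w t * g t ^ 2) + 2 * s * (∫ t in a..b, w t * g t)
        + s ^ 2 * ∫ t in a..b, w t := by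
  have h1 : ∀ t, w t * (g t + s) ^ 2 = w t * g t ^ 2 + 2 * s * (w t * g t) + s ^ 2 * w t := by
    intro t; ring
  rw [intervalIntegral.integral_congr (fun t _ => h1 t)]
  rw [intervalIntegral.integral_add, intervalIntegral.integral_add,
    intervalIntegral.integral_const_mul, intervalIntegral.integral_const_mul]
  · exact (hw.mul (hg.pow 2)).intervalIntegrable _ _
  · exact (continuous_const.mul (hw.mul hg)).intervalIntegrable _ _
  · exact ((hw.mul (hg.pow 2)).add (continuous_const.mul (hw.mul hg))).intervalIntegrable _ _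
  · exact (continuous_const.mul hw).intervalIntegrable _ _

lemma integral_weight_shift {g w : ℝ → ℝ} (hg : Continuous g) (hw : Continuous w) (a b s : ℝ) :
    ∫ t in a..b, w t * (g t + s) = (∫ t in a..b, w t * g t) + s * ∫ t in a..b, w t := by
  have h1 : ∀ t, w t * (g t + s) = w t * g t + s * w t := by
    intro t; ring
  rw [intervalIntegral.integral_congr (fun t _ => h1 t)]
  rw [intervalIntegral.integral_add, intervalIntegral.integral_const_mul]
  · exact (hw.mul hg).intervalIntegrable _ _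
  · exact (continuous_const.mul hw).intervalIntegrable _ _

/-- Splitting the energy integral of a mode with `Q = κ - μ w`. -/
lemma NeumannMode.energy_split {t₁ t₂ κ μ : ℝ} {w a a' a'' : ℝ → ℝ} (hw : Continuous w)
    (h : NeumannMode t₁ t₂ (fun t => κ - μ * w t) a a' a'') {t₀ : ℝ} (ht₀ : t₀ ∈ Icc t₁ t₂) :
    (∫ t in t₁..t₀, a' t ^ 2) + κ * (∫ t in t₁..t₀, a t ^ 2)
      - μ * (∫ t in t₁..t₀, w t * a t ^ 2) = a t₀ * a' t₀ := by
  have he := h.energy ht₀
  have i1 : IntervalIntegrable (fun t => a' t ^ 2) volume t₁ t₀ :=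
    (h.cont'.pow 2).intervalIntegrable _ _
  have i2 : IntervalIntegrable (fun t => κ * a t ^ 2) volume t₁ t₀ :=
    (continuous_const.mul (h.cont.pow 2)).intervalIntegrable _ _
  have i3 : IntervalIntegrable (fun t => μ * (w t * a t ^ 2)) volume t₁ t₀ :=
    (continuous_const.mul (hw.mul (h.cont.pow 2))).intervalIntegrable _ _
  have h1 : ∫ t in t₁..t₀, (a' t ^ 2 + (κ - μ * w t) * a t ^ 2)
      = (∫ t in t₁..t₀, a' t ^ 2) + κ * (∫ t in t₁..t₀, a t ^ 2)
        - μ * (∫ t in t₁..t₀, w t * a t ^ 2) := by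
    rw [← intervalIntegral.integral_const_mul, ← intervalIntegral.integral_const_mul,
      ← intervalIntegral.integral_add i1 i2, ← intervalIntegral.integral_sub (i1.add i2) i3]
    apply intervalIntegral.integral_congr
    intro t _
    simp only
    ring
  rw [← h1]
  exact he

/-- Splitting the first integral of a mode with `Q = κ - μ w`. -/
lemma NeumannMode.linear_split {t₁ t₂ κ μ : ℝ} {w a a' a'' : ℝ → ℝ} (hw : Continuous w)
    (h : NeumannMode t₁ t₂ (fun t => κ - μ * w t) a a' a'') {t₀ : ℝ} (ht₀ : t₀ ∈ Icc t₁ t₂) :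
    κ * (∫ t in t₁..t₀, a t) - μ * (∫ t in t₁..t₀, w t * a t) = a' t₀ := by
  have he := h.linear ht₀
  have i2 : IntervalIntegrable (fun t => κ * a t) volume t₁ t₀ :=
    (continuous_const.mul h.cont).intervalIntegrable _ _
  have i3 : IntervalIntegrable (fun t => μ * (w t * a t)) volume t₁ t₀ :=
    (continuous_const.mul (hw.mul h.cont)).intervalIntegrable _ _
  have h1 : ∫ t in t₁..t₀, (κ - μ * w t) * a t
      = κ * (∫ t in t₁..t₀, a t) - μ * (∫ t in t₁..t₀, w t * a t) := by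
    rw [← intervalIntegral.integral_const_mul, ← intervalIntegral.integral_const_mul,
      ← intervalIntegral.integral_sub i2 i3]
    apply intervalIntegral.integral_congr
    intro t _
    simp only
    ring
  rw [← h1]
  exact he

/-- The one-mode Rayleigh inequality for the test function `stopped a t₁ t₀ + s`. -/
lemma test_mode_one {t₁ t₂ α μ : ℝ} (hα : 0 < α) {w : ℝ → ℝ} (hw : Continuous w)
    (hmin : RayleighMin t₁ t₂ α μ w) {a a' : ℝ → ℝ} (hd : ∀ t, HasDerivAt a (a' t) t)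
    (hc' : Continuous a') {t₀ : ℝ} (ht₀ : t₀ ∈ Icc t₁ t₂) (s : ℝ) :
    μ * ((∫ t in t₁..t₀, w t * a t ^ 2) + 2 * s * (∫ t in t₁..t₀, w t * a t)
          + s ^ 2 * (∫ t in t₁..t₀, w t) + (a t₀ + s) ^ 2 * ∫ t in t₀..t₂, w t)
      ≤ (∫ t in t₁..t₀, a' t ^ 2)
        + (π / α) ^ 2 * ((∫ t in t₁..t₀, a t ^ 2) + 2 * s * (∫ t in t₁..t₀, a t)
          + s ^ 2 * (t₀ - t₁) + (a t₀ + s) ^ 2 * (t₂ - t₀)) := by
  have hc : Continuous a := continuous_iff_continuousAt.2 fun t => (hd t).continuousAt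
  have h12 : t₁ ≤ t₂ := ht₀.1.trans ht₀.2
  obtain ⟨K, hK⟩ := stopped_lipschitz hd hc' ht₀.1 s
  obtain ⟨M, hM⟩ := stopped_bounded hc ht₀.1 s
  have hV := rayleigh_mode_one h12 hα hw hmin hK hM
  have hD := integral_deriv_stopped_sq hd hc' ht₀.1 ht₀.2 s
  have hW := integral_weight_stopped_sq hc hw ht₀.1 ht₀.2 s
  have hW1 := integral_weight_stopped_sq hc (continuous_const (y := (1:ℝ))) ht₀.1 ht₀.2 s
  have hS := integral_weight_shift_sq hc hw t₁ t₀ s
  have hS1 := integral_weight_shift_sq hc (continuous_const (y := (1:ℝ))) t₁ t₀ s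
  simp only [one_mul, intervalIntegral.integral_const, smul_eq_mul, mul_one] at hW1 hS1
  have e1 : ∫ t in t₁..t₂, w t * (stopped a t₁ t₀ t + s) ^ 2
      = (∫ t in t₁..t₀, w t * a t ^ 2) + 2 * s * (∫ t in t₁..t₀, w t * a t)
          + s ^ 2 * (∫ t in t₁..t₀, w t) + (a t₀ + s) ^ 2 * ∫ t in t₀..t₂, w t := by
    rw [hW, hS]
  have e2 : ∫ t in t₁..t₂, (stopped a t₁ t₀ t + s) ^ 2
      = (∫ t in t₁..t₀, a t ^ 2) + 2 * s * (∫ t in t₁..t₀, a t)
          + s ^ 2 * (t₀ - t₁) + (a t₀ + s) ^ 2 * (t₂ - t₀) := by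
    rw [hW1, hS1]
  rw [← e1, ← e2, ← hD]
  exact hV

/-- The zero-mode Rayleigh inequality for the test function `stopped a t₁ t₀ + s`. -/
lemma test_mode_zero {t₁ t₂ α μ : ℝ} (hα : 0 < α) {w : ℝ → ℝ} (hw : Continuous w)
    (hmin : RayleighMin t₁ t₂ α μ w) {a a' : ℝ → ℝ} (hd : ∀ t, HasDerivAt a (a' t) t)
    (hc' : Continuous a') {t₀ : ℝ} (ht₀ : t₀ ∈ Icc t₁ t₂) (s : ℝ)
    (hmean : (∫ t in t₁..t₀, w t * a t) + s * (∫ t in t₁..t₀, w t)
      + (a t₀ + s) * ∫ t in t₀..t₂, w t = 0) :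
    μ * ((∫ t in t₁..t₀, w t * a t ^ 2) + 2 * s * (∫ t in t₁..t₀, w t * a t)
          + s ^ 2 * (∫ t in t₁..t₀, w t) + (a t₀ + s) ^ 2 * ∫ t in t₀..t₂, w t)
      ≤ ∫ t in t₁..t₀, a' t ^ 2 := by
  have hc : Continuous a := continuous_iff_continuousAt.2 fun t => (hd t).continuousAt
  have h12 : t₁ ≤ t₂ := ht₀.1.trans ht₀.2
  obtain ⟨K, hK⟩ := stopped_lipschitz hd hc' ht₀.1 s
  obtain ⟨M, hM⟩ := stopped_bounded hc ht₀.1 s
  have hL := integral_weight_stopped hc hw ht₀.1 ht₀.2 s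
  have hL1 := integral_weight_shift hc hw t₁ t₀ s
  have hm : ∫ t in t₁..t₂, w t * (stopped a t₁ t₀ t + s) = 0 := by
    rw [hL, hL1]
    exact hmean
  have hV := rayleigh_mode_zero h12 hα hw hmin hK hM hm
  have hD := integral_deriv_stopped_sq hd hc' ht₀.1 ht₀.2 s
  have hW := integral_weight_stopped_sq hc hw ht₀.1 ht₀.2 s
  have hS := integral_weight_shift_sq hc hw t₁ t₀ s
  have e1 : ∫ t in t₁..t₂, w t * (stopped a t₁ t₀ t + s) ^ 2
      = (∫ t in t₁..t₀, w t * a t ^ 2) + 2 * s * (∫ t in t₁..t₀, w t * a t)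
          + s ^ 2 * (∫ t in t₁..t₀, w t) + (a t₀ + s) ^ 2 * ∫ t in t₀..t₂, w t := by
    rw [hW, hS]
  rw [← e1, ← hD]
  exact hV

/-- Modes of angular frequency above the first one vanish. -/
lemma higher_mode_zero {t₁ t₂ α μ : ℝ} (ht : t₁ < t₂) (hα : 0 < α) {w : ℝ → ℝ}
    (hw : Continuous w) (hmin : RayleighMin t₁ t₂ α μ w) {κ : ℝ} (hκ : (π / α) ^ 2 < κ)
    {a a' a'' : ℝ → ℝ} (h : NeumannMode t₁ t₂ (fun t => κ - μ * w t) a a' a'') :
    ∀ t ∈ Icc t₁ t₂, a t = 0 := by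
  have hmem : t₂ ∈ Icc t₁ t₂ := ⟨ht.le, le_refl _⟩
  have hV := test_mode_one hα hw hmin h.d1 h.cont' hmem 0
  have hE := h.energy_split hw hmem
  rw [h.n2, mul_zero] at hE
  simp only [intervalIntegral.integral_same, mul_zero, add_zero, sub_self, zero_mul,
    ne_eq, OfNat.ofNat_ne_zero, not_false_eq_true, zero_pow] at hV
  have hnn : 0 ≤ ∫ t in t₁..t₂, a t ^ 2 :=
    intervalIntegral.integral_nonneg ht.le fun t _ => sq_nonneg _
  have hI : ∫ t in t₁..t₂, a t ^ 2 = 0 := by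
    have h3 : (κ - (π / α) ^ 2) * ∫ t in t₁..t₂, a t ^ 2 ≤ 0 := by linarith
    have h4 : 0 < κ - (π / α) ^ 2 := by linarith
    have h5 : ∫ t in t₁..t₂, a t ^ 2 ≤ 0 := by
      by_contra hcon
      rw [not_le] at hcon
      have := mul_pos h4 hcon
      linarith
    linarith
  exact eq_zero_of_integral_sq_eq_zero h.cont ht hI

/-- A quadratic `2 s β + s² Γ` that is nonnegative for all `s` has `β = 0`. -/
lemma quad_nonneg_imp {β Γ : ℝ} (h : ∀ s : ℝ, 0 ≤ 2 * s * β + s ^ 2 * Γ) : β = 0 := by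
  by_contra hβ
  have hD : 0 < |Γ| + 1 := by positivity
  have h1 := h (-β / (|Γ| + 1))
  have h2 : 2 * (-β / (|Γ| + 1)) * β + (-β / (|Γ| + 1)) ^ 2 * Γ
      = β ^ 2 * (Γ - 2 * (|Γ| + 1)) / (|Γ| + 1) ^ 2 := by
    field_simp
    ring
  rw [h2] at h1
  have h3 : Γ - 2 * (|Γ| + 1) < 0 := by
    have := le_abs_self Γ
    have := abs_nonneg Γ
    linarith
  have h4 : 0 < β ^ 2 := by positivity
  have h5 : β ^ 2 * (Γ - 2 * (|Γ| + 1)) / (|Γ| + 1) ^ 2 < 0 := by
    apply div_neg_of_neg_of_pos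
    · exact mul_neg_of_pos_of_neg h4 h3
    · positivity
  linarith

/-- A first angular mode that vanishes somewhere on `[t₁,t₂]` vanishes identically there. -/
lemma first_mode_ne_zero {t₁ t₂ α μ : ℝ} (hα : 0 < α) {w : ℝ → ℝ}
    (hw : Continuous w) (hmin : RayleighMin t₁ t₂ α μ w)
    {a a' a'' : ℝ → ℝ} (h : NeumannMode t₁ t₂ (fun t => (π / α) ^ 2 - μ * w t) a a' a'')
    {t₀ : ℝ} (ht₀ : t₀ ∈ Icc t₁ t₂) (h0 : a t₀ = 0) :
    ∀ t ∈ Icc t₁ t₂, a t = 0 := by
  have hE := h.energy_split hw ht₀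
  have hL := h.linear_split hw ht₀
  rw [h0, zero_mul] at hE
  have hint : ∫ t in t₁..t₂, w t = (∫ t in t₁..t₀, w t) + ∫ t in t₀..t₂, w t :=
    (intervalIntegral.integral_add_adjacent_intervals (hw.intervalIntegrable _ _)
      (hw.intervalIntegrable _ _)).symm
  have hβ : a' t₀ = 0 := by
    apply quad_nonneg_imp (Γ := (π / α) ^ 2 * (t₂ - t₁) - μ * ∫ t in t₁..t₂, w t)
    intro s
    have hV := test_mode_one hα hw hmin h.d1 h.cont' ht₀ s
    rw [h0, zero_add] at hV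
    rw [hint]
    have hL' : 2 * s * ((π / α) ^ 2 * (∫ t in t₁..t₀, a t) - μ * ∫ t in t₁..t₀, w t * a t)
        = 2 * s * a' t₀ := by rw [hL]
    linarith [hV, hE, hL']
  have hQ : Continuous (fun t => (π / α) ^ 2 - μ * w t) :=
    continuous_const.sub (continuous_const.mul hw)
  exact h.unique hQ ht₀ h0 hβ

/-- A radial mode whose derivative vanishes at an interior point vanishes identically. -/
lemma radial_mode_deriv_ne_zero {t₁ t₂ α μ : ℝ} (hα : 0 < α) (hμ : 0 < μ) {w : ℝ → ℝ}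
    (hw : Continuous w) (hpos : ∀ t, 0 < w t) (hmin : RayleighMin t₁ t₂ α μ w)
    {a a' a'' : ℝ → ℝ} (h : NeumannMode t₁ t₂ (fun t => 0 - μ * w t) a a' a'')
    {t₀ : ℝ} (ht₀ : t₀ ∈ Ioo t₁ t₂) (h0 : a' t₀ = 0) :
    ∀ t ∈ Icc t₁ t₂, a t = 0 := by
  have hmem : t₀ ∈ Icc t₁ t₂ := Ioo_subset_Icc_self ht₀
  have hE := h.energy_split hw hmem
  have hL := h.linear_split hw hmem
  rw [h0, mul_zero] at hE
  rw [h0] at hL
  have hwa : ∫ t in t₁..t₀, w t * a t = 0 := by
    have : μ * ∫ t in t₁..t₀, w t * a t = 0 := by linarith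
    rcases mul_eq_zero.1 this with h' | h'
    · exact absurd h' hμ.ne'
    · exact h'
  have hW1 : 0 < ∫ t in t₁..t₀, w t :=
    intervalIntegral.intervalIntegral_pos_of_pos (hw.intervalIntegrable _ _) hpos ht₀.1
  have hW2 : 0 < ∫ t in t₀..t₂, w t :=
    intervalIntegral.intervalIntegral_pos_of_pos (hw.intervalIntegrable _ _) hpos ht₀.2
  set W1 := ∫ t in t₁..t₀, w t with hW1def
  set W2 := ∫ t in t₀..t₂, w t with hW2def
  have hsum : 0 < W1 + W2 := by linarith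
  set s : ℝ := -(a t₀ * W2 / (W1 + W2)) with hs
  have hmean : (∫ t in t₁..t₀, w t * a t) + s * W1 + (a t₀ + s) * W2 = 0 := by
    rw [hwa, hs]
    field_simp
    ring
  have hV := test_mode_zero hα hw hmin h.d1 h.cont' hmem s hmean
  rw [hwa] at hV
  have h6 : μ * (s ^ 2 * W1 + (a t₀ + s) ^ 2 * W2) ≤ 0 := by nlinarith [hV, hE]
  have h7 : s ^ 2 * W1 + (a t₀ + s) ^ 2 * W2 ≤ 0 := by
    by_contra hcon
    rw [not_le] at hcon
    have := mul_pos hμ hcon
    linarith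
  have h8 : 0 ≤ s ^ 2 * W1 := by positivity
  have h9 : 0 ≤ (a t₀ + s) ^ 2 * W2 := by positivity
  have h10 : s ^ 2 * W1 = 0 := by linarith
  have h11 : (a t₀ + s) ^ 2 * W2 = 0 := by linarith
  have hs0 : s = 0 := by
    rcases mul_eq_zero.1 h10 with h' | h'
    · exact pow_eq_zero_iff two_ne_zero |>.1 h'
    · exact absurd h' hW1.ne'
  have ha0 : a t₀ + s = 0 := by
    rcases mul_eq_zero.1 h11 with h' | h'
    · exact pow_eq_zero_iff two_ne_zero |>.1 h'
    · exact absurd h' hW2.ne'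
  have hat : a t₀ = 0 := by linarith
  have hQ : Continuous (fun t => 0 - μ * w t) :=
    continuous_const.sub (continuous_const.mul hw)
  exact h.unique hQ hmem hat h0

end Vale.Agent.Lib.P071
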