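import Mathlib
import Vale.Agent.Lib.P071.Defs
import Vale.Agent.Lib.P071.Ode
import Vale.Agent.Lib.P071.Variational
import Vale.Agent.Lib.P071.Cosine
import Vale.Agent.Lib.P071.Modes

namespace Vale.Agent.Lib.P071

open Set MeasureTheory Real Filter Topology

/-- `cos (π θ / α)` lies strictly between `-1` and `1` for `0 < θ < α`. -/
lemma cos_mem_Ioo {α θ : ℝ} (hα : 0 < α) (hθ : θ ∈ Ioo (0:ℝ) α) :
    -1 < cos (π * θ / α) ∧ cos (π * θ / α) < 1 := by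
  have h1 : 0 < π * θ / α := by
    have := hθ.1
    positivity
  have h2 : π * θ / α < π := by
    rw [div_lt_iff₀ hα]
    exact mul_lt_mul_of_pos_left hθ.2 pi_pos
  constructor
  · have := Real.cos_lt_cos_of_nonneg_of_le_pi h1.le le_rfl h2
    rwa [Real.cos_pi] at this
  · have := Real.cos_lt_cos_of_nonneg_of_le_pi le_rfl h2.le h1
    rwa [Real.cos_zero] at this

/-- A continuous function without zeros on an open interval has constant sign there. -/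
lemma sign_const_of_ne_zero {f : ℝ → ℝ} (hf : Continuous f) {a b : ℝ} (hab : a < b)
    (hne : ∀ s ∈ Ioo a b, f s ≠ 0) :
    (∀ s ∈ Ioo a b, 0 < f s) ∨ (∀ s ∈ Ioo a b, f s < 0) := by
  have hmid : (a + b) / 2 ∈ Ioo a b := ⟨by linarith, by linarith⟩
  rcases lt_or_gt_of_ne (hne _ hmid) with hneg | hpos
  · right
    intro s hs
    by_contra hcon
    rw [not_lt] at hcon
    have hivt := intermediate_value_uIcc (f := f) (a := (a + b) / 2) (b := s) hf.continuousOn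
    have h0 : (0:ℝ) ∈ uIcc (f ((a + b) / 2)) (f s) := by
      rw [uIcc_of_le (by linarith)]
      exact ⟨hneg.le, hcon⟩
    obtain ⟨c, hc, hc0⟩ := hivt h0
    exact hne c (ordConnected_Ioo.uIcc_subset hmid hs hc) hc0
  · left
    intro s hs
    by_contra hcon
    rw [not_lt] at hcon
    have hivt := intermediate_value_uIcc (f := f) (a := (a + b) / 2) (b := s) hf.continuousOn
    have h0 : (0:ℝ) ∈ uIcc (f ((a + b) / 2)) (f s) := by
      rw [uIcc_of_ge (by linarith)]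
      exact ⟨hcon, hpos.le⟩
    obtain ⟨c, hc, hc0⟩ := hivt h0
    exact hne c (ordConnected_Ioo.uIcc_subset hmid hs hc) hc0

/-- The strict hot spots property on a weighted rectangle: a nonzero solution of
`u_tt + u_θθ = -μ w(t) u` with Neumann conditions on `[t₁,t₂] × [0,α]`, where `μ > 0` is at most
the first positive Neumann eigenvalue (hypothesis `RayleighMin`), takes at every interior point a
value strictly between two of its boundary values. -/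
theorem hot_spots_rect {t₁ t₂ α μ : ℝ} (ht : t₁ < t₂) (hα : 0 < α) (hμ : 0 < μ) {w : ℝ → ℝ}
    (hw : Continuous w) (hpos : ∀ t, 0 < w t) {u : ℝ × ℝ → ℝ} (hu : ContDiff ℝ 2 u)
    (hpde : ∀ t ∈ Icc t₁ t₂, ∀ θ ∈ Icc (0:ℝ) α,
        deriv (fun s => deriv (fun r => u (r, θ)) s) t
          + deriv (fun s => deriv (fun r => u (t, r)) s) θ = - (μ * w t) * u (t, θ))
    (hN₁ : ∀ θ ∈ Icc (0:ℝ) α,
        deriv (fun r => u (r, θ)) t₁ = 0 ∧ deriv (fun r => u (r, θ)) t₂ = 0)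
    (hN₂ : ∀ t ∈ Icc t₁ t₂,
        deriv (fun r => u (t, r)) 0 = 0 ∧ deriv (fun r => u (t, r)) α = 0)
    (hne : ∃ t ∈ Icc t₁ t₂, ∃ θ ∈ Icc (0:ℝ) α, u (t, θ) ≠ 0)
    (hmin : RayleighMin t₁ t₂ α μ w) :
    ∀ t ∈ Ioo t₁ t₂, ∀ θ ∈ Ioo (0:ℝ) α,
      ∃ p q : ℝ × ℝ,
        (p.1 ∈ Icc t₁ t₂ ∧ p.2 ∈ Icc (0:ℝ) α ∧ (p.1 = t₁ ∨ p.1 = t₂ ∨ p.2 = 0 ∨ p.2 = α)) ∧
        (q.1 ∈ Icc t₁ t₂ ∧ q.2 ∈ Icc (0:ℝ) α ∧ (q.1 = t₁ ∨ q.1 = t₂ ∨ q.2 = 0 ∨ q.2 = α)) ∧
        u p < u (t, θ) ∧ u (t, θ) < u q := by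
  have hmode : ∀ k : ℕ, ∃ a' a'' : ℝ → ℝ,
      NeumannMode t₁ t₂ (fun t => ((k:ℝ) * π / α) ^ 2 - μ * w t)
        (fun t => ∫ θ in (0:ℝ)..α, u (t, θ) * cos (k * π * θ / α)) a' a'' := by
    intro k
    obtain ⟨a', a'', h1, h2, h3, h4, h5, h6⟩ := neumann_mode_of_pde hα hu hpde hN₁ hN₂ k
    exact ⟨a', a'', ⟨h1, h2, h3, h4, h5, h6⟩⟩
  have hhigh : ∀ k : ℕ, 2 ≤ k → ∀ t ∈ Icc t₁ t₂,
      ∫ θ in (0:ℝ)..α, u (t, θ) * cos (k * π * θ / α) = 0 := by
    intro k hk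
    obtain ⟨a', a'', hm⟩ := hmode k
    have hκ : (π / α) ^ 2 < ((k:ℝ) * π / α) ^ 2 := by
      have hk' : (2:ℝ) ≤ k := by exact_mod_cast hk
      have h1 : 0 < π / α := div_pos pi_pos hα
      have h2 : (k:ℝ) * π / α = k * (π / α) := by ring
      rw [h2]
      have h3 : π / α < (k:ℝ) * (π / α) := by nlinarith
      exact pow_lt_pow_left₀ h3 h1.le two_ne_zero
    exact higher_mode_zero ht hα hw hmin hκ hm
  have hrep : ∀ t ∈ Icc t₁ t₂, ∀ θ ∈ Icc (0:ℝ) α, u (t, θ)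
      = (1 / α) * (∫ s in (0:ℝ)..α, u (t, s))
        + (2 / α) * (∫ s in (0:ℝ)..α, u (t, s) * cos (π * s / α)) * cos (π * θ / α) := by
    intro t htt
    have hc : Continuous (fun θ => u (t, θ)) :=
      hu.continuous.comp (continuous_const.prodMk continuous_id)
    exact cosine_two_modes hα hc (fun k hk => hhigh k hk t htt)
  obtain ⟨b', b'', hm0'⟩ := hmode 0
  obtain ⟨a', a'', hm1'⟩ := hmode 1
  have hm0 : NeumannMode t₁ t₂ (fun t => 0 - μ * w t)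
      (fun t => ∫ s in (0:ℝ)..α, u (t, s)) b' b'' := by
    simpa using hm0'
  have hm1 : NeumannMode t₁ t₂ (fun t => (π / α) ^ 2 - μ * w t)
      (fun t => ∫ s in (0:ℝ)..α, u (t, s) * cos (π * s / α)) a' a'' := by
    simpa using hm1'
  intro t htt θ hθ
  have htI : t ∈ Icc t₁ t₂ := Ioo_subset_Icc_self htt
  have hθI : θ ∈ Icc (0:ℝ) α := Ioo_subset_Icc_self hθ
  have h0mem : (0:ℝ) ∈ Icc (0:ℝ) α := ⟨le_rfl, hα.le⟩
  have hαmem : α ∈ Icc (0:ℝ) α := ⟨hα.le, le_rfl⟩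
  have h1mem : t₁ ∈ Icc t₁ t₂ := ⟨le_rfl, ht.le⟩
  have h2mem : t₂ ∈ Icc t₁ t₂ := ⟨ht.le, le_rfl⟩
  have hαinv : 0 < 1 / α := by positivity
  by_cases hA1 : ∀ s ∈ Icc t₁ t₂, (∫ r in (0:ℝ)..α, u (s, r) * cos (π * r / α)) = 0
  · have hrep0 : ∀ s ∈ Icc t₁ t₂, ∀ r ∈ Icc (0:ℝ) α,
        u (s, r) = (1 / α) * (∫ x in (0:ℝ)..α, u (s, x)) := by
      intro s hs r hr
      rw [hrep s hs r hr, hA1 s hs]
      ring
    have hA0 : ∃ s ∈ Icc t₁ t₂, (∫ x in (0:ℝ)..α, u (s, x)) ≠ 0 := by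
      obtain ⟨s, hs, r, hr, hne'⟩ := hne
      refine ⟨s, hs, fun h => hne' ?_⟩
      rw [hrep0 s hs r hr, h, mul_zero]
    have hb'ne : ∀ s ∈ Ioo t₁ t₂, b' s ≠ 0 := by
      intro s hs h0
      obtain ⟨s', hs', hne'⟩ := hA0
      exact hne' (radial_mode_deriv_ne_zero hα hμ hw hpos hmin hm0 hs h0 s' hs')
    have hd0 : ∀ s, HasDerivAt (fun t => ∫ x in (0:ℝ)..α, u (t, x)) (b' s) s := hm0.d1
    have hcontA0 : Continuous (fun t => ∫ x in (0:ℝ)..α, u (t, x)) := hm0.cont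
    rcases sign_const_of_ne_zero hm0.cont' ht hb'ne with hp | hn
    · have hmono : StrictMonoOn (fun t => ∫ x in (0:ℝ)..α, u (t, x)) (Icc t₁ t₂) := by
        apply strictMonoOn_of_deriv_pos (convex_Icc t₁ t₂) hcontA0.continuousOn
        intro s hs
        rw [interior_Icc] at hs
        rw [(hd0 s).deriv]
        exact hp s hs
      have hl := hmono h1mem htI htt.1
      have hr := hmono htI h2mem htt.2
      refine ⟨(t₁, θ), (t₂, θ), ⟨h1mem, hθI, Or.inl rfl⟩, ⟨h2mem, hθI, Or.inr (Or.inl rfl)⟩,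
        ?_, ?_⟩
      · rw [hrep0 t₁ h1mem θ hθI, hrep0 t htI θ hθI]
        exact mul_lt_mul_of_pos_left hl hαinv
      · rw [hrep0 t₂ h2mem θ hθI, hrep0 t htI θ hθI]
        exact mul_lt_mul_of_pos_left hr hαinv
    · have hanti : StrictAntiOn (fun t => ∫ x in (0:ℝ)..α, u (t, x)) (Icc t₁ t₂) := by
        apply strictAntiOn_of_deriv_neg (convex_Icc t₁ t₂) hcontA0.continuousOn
        intro s hs
        rw [interior_Icc] at hs
        rw [(hd0 s).deriv]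
        exact hn s hs
      have hl := hanti h1mem htI htt.1
      have hr := hanti htI h2mem htt.2
      refine ⟨(t₂, θ), (t₁, θ), ⟨h2mem, hθI, Or.inr (Or.inl rfl)⟩, ⟨h1mem, hθI, Or.inl rfl⟩,
        ?_, ?_⟩
      · rw [hrep0 t₂ h2mem θ hθI, hrep0 t htI θ hθI]
        exact mul_lt_mul_of_pos_left hr hαinv
      · rw [hrep0 t₁ h1mem θ hθI, hrep0 t htI θ hθI]
        exact mul_lt_mul_of_pos_left hl hαinv
  · have hA1' : ∃ s ∈ Icc t₁ t₂, (∫ r in (0:ℝ)..α, u (s, r) * cos (π * r / α)) ≠ 0 := by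
      by_contra hcon
      apply hA1
      intro s hs
      by_contra h'
      exact hcon ⟨s, hs, h'⟩
    obtain ⟨s₀, hs₀, hne1⟩ := hA1'
    have hA1t : (∫ r in (0:ℝ)..α, u (t, r) * cos (π * r / α)) ≠ 0 := by
      intro h0
      exact hne1 (first_mode_ne_zero hα hw hmin hm1 htI h0 s₀ hs₀)
    obtain ⟨hc1, hc2⟩ := cos_mem_Ioo hα hθ
    have e0 := hrep t htI 0 h0mem
    have eα := hrep t htI α hαmem
    have eθ := hrep t htI θ hθI
    have hcos0 : cos (π * 0 / α) = 1 := by simp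
    have hcosα : cos (π * α / α) = -1 := by
      rw [mul_div_assoc, div_self hα.ne', mul_one, cos_pi]
    rw [hcos0] at e0
    rw [hcosα] at eα
    have h2α : 0 < 2 / α := by positivity
    rcases lt_or_gt_of_ne hA1t with hneg | hpos'
    · have hc : (2 / α) * (∫ r in (0:ℝ)..α, u (t, r) * cos (π * r / α)) < 0 :=
        mul_neg_of_pos_of_neg h2α hneg
      have i1 := mul_lt_mul_of_neg_left hc2 hc
      have i2 := mul_lt_mul_of_neg_left hc1 hc
      refine ⟨(t, 0), (t, α), ⟨htI, h0mem, Or.inr (Or.inr (Or.inl rfl))⟩,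
        ⟨htI, hαmem, Or.inr (Or.inr (Or.inr rfl))⟩, ?_, ?_⟩
      · rw [e0, eθ]
        linarith
      · rw [eα, eθ]
        linarith
    · have hc : 0 < (2 / α) * (∫ r in (0:ℝ)..α, u (t, r) * cos (π * r / α)) :=
        mul_pos h2α hpos'
      have i1 := mul_lt_mul_of_pos_left hc2 hc
      have i2 := mul_lt_mul_of_pos_left hc1 hc
      refine ⟨(t, α), (t, 0), ⟨htI, hαmem, Or.inr (Or.inr (Or.inr rfl))⟩,
        ⟨htI, h0mem, Or.inr (Or.inr (Or.inl rfl))⟩, ?_, ?_⟩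
      · rw [eα, eθ]
        linarith
      · rw [e0, eθ]
        linarith

end Vale.Agent.Lib.P071
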